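import Vale.Agent.P166F.Low.Defs

/-!
P166: an orthogonal map with a given last column that preserves the classes up to one frame.
-/

namespace Vale.Agent.P166F.Low

open Matrix

variable {ι κ : Type}

/-- A reflection preserves sums of products. -/
lemma sum_refl_mul (s : Finset ι) (a x y : ι → ℝ) :
    ∑ i ∈ s, (x i - 2 * (∑ j ∈ s, a j * x j) / (∑ j ∈ s, a j ^ 2) * a i) *
        (y i - 2 * (∑ j ∈ s, a j * y j) / (∑ j ∈ s, a j ^ 2) * a i) = ∑ i ∈ s, x i * y i := by
  set A := ∑ j ∈ s, a j ^ 2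
  set u := ∑ j ∈ s, a j * x j
  set v := ∑ j ∈ s, a j * y j
  have e : ∀ i, (x i - 2 * u / A * a i) * (y i - 2 * v / A * a i) =
      x i * y i - 2 * v / A * (a i * x i) - 2 * u / A * (a i * y i) +
        2 * u / A * (2 * v / A) * a i ^ 2 := fun i => by ring
  simp only [e, Finset.sum_add_distrib, Finset.sum_sub_distrib, ← Finset.mul_sum]
  rcases eq_or_ne A 0 with hA | hA
  · simp [A, u, v, hA]
  · show ∑ i ∈ s, x i * y i - 2 * v / A * u - 2 * u / A * v + 2 * u / A * (2 * v / A) * A = _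
    field_simp
    ring

/-- A map preserving scalar products is given by an orthogonal matrix. -/
lemma exists_orth_of_dot [Fintype ι] [DecidableEq ι] (H : (ι → ℝ) → ι → ℝ)
    (h : ∀ x y, H x ⬝ᵥ H y = x ⬝ᵥ y) :
    ∃ O : Matrix ι ι ℝ, Oᵀ * O = 1 ∧ ∀ x, O *ᵥ x = H x := by
  set O : Matrix ι ι ℝ := of fun i k => H (Pi.single k 1) i
  have hO : Oᵀ * O = 1 := by
    ext k l
    rw [Matrix.mul_apply]
    exact (h (Pi.single k 1) (Pi.single l 1)).trans
      (by simp [Matrix.one_apply, Pi.single_apply, eq_comm])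
  refine ⟨O, hO, fun x => ?_⟩
  have hT : H x ᵥ* O = x := funext fun k => (h x (Pi.single k 1)).trans (by simp)
  calc O *ᵥ x = O *ᵥ (H x ᵥ* O) := by rw [hT]
    _ = (O * Oᵀ) *ᵥ H x := by rw [← mulVec_transpose, mulVec_mulVec]
    _ = H x := by rw [mul_eq_one_comm.1 hO, one_mulVec]

variable [Fintype κ] [DecidableEq κ]

lemma frame_dot (e : κ) (T x y : κ → ℝ) :
    ∑ j, frame e T x j * frame e T y j = ∑ j, x j * y j := by
  simp only [frame, refl]
  rw [sum_refl_mul, sum_refl_mul]

lemma sum_frame_sq_le (e : κ) (T x : κ → ℝ) (j : κ) : frame e T x j ^ 2 ≤ ∑ i, x i ^ 2 := by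
  have h := frame_dot e T x x
  simp only [← pow_two] at h
  exact h ▸ Finset.single_le_sum (f := fun i => frame e T x i ^ 2) (fun i _ => sq_nonneg _)
    (Finset.mem_univ j)

/-- The frame carries the unit vector of `e` to `T`. -/
lemma frame_unit (e : κ) {T : κ → ℝ} (hT : ∑ j, T j ^ 2 = 1) :
    frame e T (Pi.single e 1) = T := by
  set a : κ → ℝ := fun i => T i + if i = e then 1 else 0 with ha
  have h1 : refl (fun i => if i = e then (1 : ℝ) else 0) (Pi.single e 1) =
      fun i => if i = e then (-1 : ℝ) else 0 := funext fun i => by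
    simp only [refl, Pi.single_apply, ite_mul, one_mul, zero_mul, ite_pow, one_pow, ne_eq,
      OfNat.ofNat_ne_zero, not_false_eq_true, zero_pow, Finset.sum_ite_eq', Finset.mem_univ, if_true]
    split_ifs <;> norm_num
  have hA : ∑ j, a j ^ 2 = 2 + 2 * T e := by
    simp only [a, add_sq, Finset.sum_add_distrib, hT, mul_ite, mul_one, mul_zero, ite_pow, one_pow,
      ne_eq, OfNat.ofNat_ne_zero, not_false_eq_true, zero_pow, Finset.sum_ite_eq', Finset.mem_univ,
      if_true]
    ring
  funext i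
  rw [frame, h1]
  show (if i = e then (-1 : ℝ) else 0) -
    2 * (∑ j, a j * if j = e then (-1 : ℝ) else 0) / (∑ j, a j ^ 2) * a i = T i
  simp only [mul_ite, mul_zero, Finset.sum_ite_eq', Finset.mem_univ, if_true, hA]
  rcases eq_or_ne (2 + 2 * T e) 0 with hz | hz
  · have h0 := (Finset.sum_eq_zero_iff_of_nonneg fun j _ => sq_nonneg (a j)).1 (hA.trans hz) i
      (Finset.mem_univ i)
    have hi : a i = 0 := by simpa using h0
    rw [hi]
    simp only [a] at hi
    split_ifs at hi ⊢ <;> linarith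
  · have hk : 2 * (a e * -1) / (2 + 2 * T e) = -1 := by
      rw [div_eq_iff hz]
      simp only [a, if_true]
      ring
    rw [hk]
    simp only [a]
    split_ifs <;> ring

/-- The map acting as one frame on the representatives `r` and trivially elsewhere. -/
noncomputable def frameFun [DecidableEq ι] (lbl : ι → κ) (r : κ → ι) (e : κ) (T : κ → ℝ)
    (c : ι → ℝ) : ι → ℝ :=
  fun i => if i = r (lbl i) then frame e T (fun l => c (r l)) (lbl i) else c i

/-- Its matrix. -/
noncomputable def frameMat [DecidableEq ι] (lbl : ι → κ) (r : κ → ι) (e : κ) (T : κ → ℝ) :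
    Matrix ι ι ℝ :=
  of fun i k => frameFun lbl r e T (Pi.single k 1) i

/-- Orthogonal matrices that do not mix the classes. -/
def ClassPres [Fintype ι] [DecidableEq ι] (lbl : ι → κ) (B : Matrix ι ι ℝ) : Prop :=
  Bᵀ * B = 1 ∧ ∀ i k, lbl i ≠ lbl k → B i k = 0

lemma frameFun_class [Fintype ι] [DecidableEq ι] {lbl : ι → κ} {r : κ → ι} (hr : ∀ j, lbl (r j) = j)
    (e : κ) (T : κ → ℝ) (c c' : ι → ℝ) (j : κ) :
    (∑ i, if lbl i = j then frameFun lbl r e T c i * frameFun lbl r e T c' i else 0) =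
      (∑ i, if lbl i = j ∧ i ≠ r j then c i * c' i else 0) +
        frame e T (fun l => c (r l)) j * frame e T (fun l => c' (r l)) j := by
  rw [← sub_eq_iff_eq_add', ← Finset.sum_sub_distrib, Finset.sum_eq_single (r j)]
  · simp [frameFun, hr]
  · intro i _ hi
    by_cases h : lbl i = j
    · simp [frameFun, h, hi]
    · simp [h]
  · simp

lemma frameMat_spec [Fintype ι] [DecidableEq ι] {lbl : ι → κ} {r : κ → ι} (hr : ∀ j, lbl (r j) = j)
    (e : κ) (T : κ → ℝ) :
    (frameMat lbl r e T)ᵀ * frameMat lbl r e T = 1 ∧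
      ∀ c, frameMat lbl r e T *ᵥ c = frameFun lbl r e T c := by
  have e1 : ∀ z : ι → ℝ, ∑ i, z i = ∑ j, ∑ i, if lbl i = j then z i else 0 := fun z => by
    rw [Finset.sum_comm]
    simp
  have hdot : ∀ x y, frameFun lbl r e T x ⬝ᵥ frameFun lbl r e T y = x ⬝ᵥ y := by
    intro x y
    simp only [dotProduct]
    rw [e1, e1 fun i => x i * y i]
    simp only [frameFun_class hr, Finset.sum_add_distrib, frame_dot]
    rw [← Finset.sum_add_distrib]
    refine Finset.sum_congr rfl fun j _ => ?_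
    rw [← eq_sub_iff_add_eq', ← Finset.sum_sub_distrib, Finset.sum_eq_single (r j)]
    · simp [hr]
    · intro i _ hi
      by_cases h : lbl i = j <;> simp [h, hi]
    · simp
  obtain ⟨O, hO, hOx⟩ := exists_orth_of_dot (frameFun lbl r e T) hdot
  have hM : frameMat lbl r e T = O := by
    ext i k
    rw [frameMat, of_apply, ← hOx, mulVec_single_one, col_apply]
  exact hM ▸ ⟨hO, hOx⟩

omit [Fintype κ] [DecidableEq κ] in
lemma ClassPres.class_dot [Fintype ι] [DecidableEq ι] [DecidableEq κ] {lbl : ι → κ} {B : Matrix ι ι ℝ}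
    (hB : ClassPres lbl B) (x y : ι → ℝ) (j : κ) :
    (∑ i, if lbl i = j then (B *ᵥ x) i * (B *ᵥ y) i else 0) =
      ∑ i, if lbl i = j then x i * y i else 0 := by
  set P : (ι → ℝ) → ι → ℝ := fun z i => if lbl i = j then z i else 0
  have hP : ∀ z, B *ᵥ P z = P (B *ᵥ z) := fun z => funext fun i => by
    simp only [P, mulVec, dotProduct, mul_ite, mul_zero]
    by_cases h : lbl i = j
    · simp only [h, if_true]
      refine Finset.sum_congr rfl fun k _ => ?_
      split_ifs with hk
      · rfl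
      · rw [hB.2 i k (by rw [h]; exact Ne.symm hk), zero_mul]
    · simp only [h, if_false]
      refine Finset.sum_eq_zero fun k _ => ?_
      split_ifs with hk
      · rw [hB.2 i k (by rw [hk]; exact h), zero_mul]
      · rfl
  have hd : (B *ᵥ P x) ⬝ᵥ (B *ᵥ P y) = P x ⬝ᵥ P y := by
    rw [dotProduct_mulVec, ← mulVec_transpose, mulVec_mulVec, hB.1, one_mulVec]
  rw [hP, hP] at hd
  refine Eq.trans (Finset.sum_congr rfl fun i _ => ?_) (hd.trans (Finset.sum_congr rfl fun i _ => ?_)) <;>
    by_cases h : lbl i = j <;> simp [P, h]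

/-- Any unit column is a class-preserving image of the frame of its class norms. -/
lemma exists_classPres [Fintype ι] [DecidableEq ι] (lbl : ι → κ) {r : κ → ι}
    (hr : ∀ j, lbl (r j) = j) (e : κ) {u : ι → ℝ} (hu : ∑ i, u i ^ 2 = 1) {T : κ → ℝ}
    (hT : ∀ j, T j ^ 2 = ∑ i, if lbl i = j then u i ^ 2 else 0) :
    ∃ B, ClassPres lbl B ∧ (B * frameMat lbl r e T) *ᵥ Pi.single (r e) 1 = u := by
  set w := frameFun lbl r e T (Pi.single (r e) 1) with hw
  set a : ι → ℝ := fun i => w i - u i with ha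
  set cls : κ → Finset ι := fun j => Finset.univ.filter fun i => lbl i = j
  set B : (ι → ℝ) → ι → ℝ := fun x i =>
    x i - 2 * (∑ k ∈ cls (lbl i), a k * x k) / (∑ k ∈ cls (lbl i), a k ^ 2) * a i with hB
  have hdot : ∀ x y, B x ⬝ᵥ B y = x ⬝ᵥ y := by
    intro x y
    simp only [dotProduct]
    rw [← Finset.sum_fiberwise Finset.univ lbl, ← Finset.sum_fiberwise Finset.univ lbl fun i => x i * y i]
    refine Finset.sum_congr rfl fun j _ => ?_
    refine Eq.trans (Finset.sum_congr rfl fun i hi => ?_) (sum_refl_mul (cls j) a x y)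
    simp only [B, (Finset.mem_filter.1 hi).2]
  obtain ⟨O, hO, hOx⟩ := exists_orth_of_dot B hdot
  refine ⟨O, ⟨hO, fun i k hik => ?_⟩, ?_⟩
  · have h1 : O i k = B (Pi.single k 1) i := by rw [← hOx, mulVec_single_one, col_apply]
    rw [h1]
    have h2 : ∑ l ∈ cls (lbl i), a l * (Pi.single k (1 : ℝ) : ι → ℝ) l = 0 :=
      Finset.sum_eq_zero fun l hl => by
        rw [Pi.single_eq_of_ne, mul_zero]
        rintro rfl
        exact hik (Finset.mem_filter.1 hl).2.symm
    have h3 : i ≠ k := fun h => hik (congrArg lbl h)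
    simp [B, h2, h3]
  rw [← mulVec_mulVec, (frameMat_spec hr e T).2, hOx]
  have hT1 : ∑ j, T j ^ 2 = 1 := by
    simp only [hT]
    rw [Finset.sum_comm]
    simpa using hu
  have hwv : ∀ i, w i = if i = r (lbl i) then T (lbl i) else 0 := fun i => by
    simp only [w, frameFun]
    split_ifs with h
    · have hinj : Function.Injective r := fun p q hpq => by rw [← hr p, hpq, hr q]
      rw [show (fun l => (Pi.single (r e) (1 : ℝ) : ι → ℝ) (r l)) = Pi.single e 1 from funext fun l => by
        simp [Pi.single_apply, hinj.eq_iff]]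
      rw [frame_unit e hT1]
    · exact Pi.single_eq_of_ne (fun hi => h (by rw [hi, hr])) 1
  funext i
  show w i - 2 * (∑ k ∈ cls (lbl i), a k * w k) / (∑ k ∈ cls (lbl i), a k ^ 2) * a i = u i
  have hww : ∑ k ∈ cls (lbl i), w k ^ 2 = ∑ k ∈ cls (lbl i), u k ^ 2 := by
    rw [Finset.sum_filter, Finset.sum_filter, ← hT, Finset.sum_eq_single (r (lbl i))]
    · simp [hwv, hr]
    · intro k _ hk
      split_ifs with h
      · rw [hwv, if_neg (by rw [h]; exact hk)]
        norm_num
      · rfl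
    · simp
  have hA : ∑ k ∈ cls (lbl i), a k ^ 2 = 2 * ∑ k ∈ cls (lbl i), a k * w k := by
    have e2 : ∀ k, a k ^ 2 = 2 * (a k * w k) - (w k ^ 2 - u k ^ 2) := fun k => by simp only [a]; ring
    simp only [e2, Finset.sum_sub_distrib, hww, sub_self, sub_zero, Finset.mul_sum]
  rcases eq_or_ne (∑ k ∈ cls (lbl i), a k ^ 2) 0 with hz | hz
  · have h0 := (Finset.sum_eq_zero_iff_of_nonneg fun k _ => sq_nonneg (a k)).1 hz i
      (by simp [cls])
    have hi : a i = 0 := by simpa using h0
    rw [hi, mul_zero, sub_zero]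
    simp only [a] at hi
    linarith
  · rw [← hA, div_self hz, one_mul]
    simp [a]

/-- An orthogonal matrix with column `u` at `r e`, acting in each class as one frame on the
representatives `r`. -/
lemma exists_classRot [Fintype ι] [DecidableEq ι] (lbl : ι → κ) {r : κ → ι}
    (hr : ∀ j, lbl (r j) = j) (e : κ) {u : ι → ℝ} (hu : ∑ i, u i ^ 2 = 1) {T : κ → ℝ}
    (hT : ∀ j, T j ^ 2 = ∑ i, if lbl i = j then u i ^ 2 else 0) :
    ∃ O : Matrix ι ι ℝ, Oᵀ * O = 1 ∧ O *ᵥ Pi.single (r e) 1 = u ∧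
      ∀ c c' j, (∑ i, if lbl i = j then (O *ᵥ c) i * (O *ᵥ c') i else 0) =
        (∑ i, if lbl i = j ∧ i ≠ r j then c i * c' i else 0) +
          frame e T (fun l => c (r l)) j * frame e T (fun l => c' (r l)) j := by
  obtain ⟨B, hB, hBe⟩ := exists_classPres lbl hr e hu hT
  refine ⟨B * frameMat lbl r e T, ?_, hBe, fun c c' j => ?_⟩
  · rw [transpose_mul, Matrix.mul_assoc, ← Matrix.mul_assoc Bᵀ, hB.1, Matrix.one_mul,
      (frameMat_spec hr e T).1]
  · rw [← mulVec_mulVec, ← mulVec_mulVec, hB.class_dot, (frameMat_spec hr e T).2,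
      (frameMat_spec hr e T).2, frameFun_class hr]

end Vale.Agent.P166F.Low
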