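import Vale.Agent.P166F.Low.Decomp.Gauss
import Vale.Agent.P166F.Low.Decomp.Frame

/-!
P166: the bookkeeping of the moved rows, and the comparison at given rotations when a spin is added.
-/

namespace Vale.Agent.P166F.Low

open MeasureTheory Matrix
open scoped RealInnerProductSpace
open Vale.Agent.P166 (spin)
open Vale.Agent.P166F.Orth (Arr2 mm)

variable {κ : Type} [DecidableEq κ] {N n P : ℕ} {dl : κ → ℝ} {e f : κ} {s : ℝ}
  {y : CIdx Unit P → ℝ}

lemma inner_featV (n : ℕ) (lbl : Fin N → κ) (f : κ) (U : Fin N → Fin N → ℝ) (σ τ : Fin N → Bool) :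
    ⟪featV n lbl f U σ, featV n lbl f U τ⟫ =
      (∑ i, if lbl i = f then coord U σ i * coord U τ i else 0) / (max n N : ℕ) := by
  simp only [featV, PiLp.inner_apply, RCLike.inner_apply, conj_trivial, Finset.sum_div]
  refine Finset.sum_congr rfl fun i _ => ?_
  split_ifs
  · rw [div_mul_div_comm, Real.mul_self_sqrt (Nat.cast_nonneg _)]
    ring
  · simp

lemma norm_featV_sq (n : ℕ) (lbl : Fin N → κ) (f : κ) (U : Fin N → Fin N → ℝ) (σ : Fin N → Bool) :
    ‖featV n lbl f U σ‖ ^ 2 =
      (∑ i, if lbl i = f then coord U σ i * coord U σ i else 0) / (max n N : ℕ) := by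
  rw [← real_inner_self_eq_norm_sq, inner_featV]

/-! ### Moved rows -/

lemma Base.moved_row (b : Base e f N) (g : κ → κ) (x : Fld e) :
    b.moved g (b.row x) = Sum.elim (fun j => g j.1) (fun j => lab e f j.1) x := by
  have h : ∃ x', b.row x' = b.row x := ⟨x, rfl⟩
  rw [Base.moved, dif_pos h, b.inj h.choose_spec]

lemma Base.moved_off (b : Base e f N) (g : κ → κ) {i : Fin N} (h : ¬∃ x, b.row x = i) :
    b.moved g i = b.lbl i := by
  rw [Base.moved, dif_neg h]

lemma lab_ne (hef : e ≠ f) (j : κ) : lab e f j ≠ f := by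
  unfold lab
  split_ifs with h
  · exact hef
  · exact h

/-- The representative row of each class after adding a spin. -/
def Base.rep (b : Base e f N) (j : κ) : Fin (N + 1) :=
  if h : j = e then Fin.last N else Fin.castSucc (b.row (Sum.inl ⟨j, h⟩))

lemma Base.plus_last (b : Base e f N) : b.plus (Fin.last N) = e := Fin.snoc_last _ _

lemma Base.plus_castSucc (b : Base e f N) (i : Fin N) : b.plus i.castSucc = b.moved id i :=
  Fin.snoc_castSucc _ _ _

lemma Base.plus_rep (b : Base e f N) (j : κ) : b.plus (b.rep j) = j := by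
  unfold Base.rep
  split_ifs with h
  · rw [b.plus_last, h]
  · simp [b.plus_castSucc, b.moved_row]

lemma Base.rep_e (b : Base e f N) : b.rep e = Fin.last N := dif_pos rfl

lemma Base.rep_ne_inr (b : Base e f N) (l : κ) (j : Slot e) :
    (b.row (Sum.inr j)).castSucc ≠ b.rep l := by
  unfold Base.rep
  split_ifs
  · exact (Fin.castSucc_lt_last _).ne
  · exact fun h => Sum.inr_ne_inl (b.inj (Fin.castSucc_injective _ h))

variable [Fintype κ]

/-- Sums over the rows other than the representatives, after adding a spin. -/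
lemma Base.sum_rest (b : Base e f N) (w : κ → ℝ) (hw : w e = 0) (p : Fin (N + 1) → ℝ) :
    ∑ j, w j * (∑ i, if b.plus i = j ∧ i ≠ b.rep j then p i else 0) =
      ∑ k, w (b.lbl k) * p k.castSucc +
        ∑ j : Slot e, w (lab e f j.1) * p (b.row (Sum.inr j)).castSucc := by
  have h1 : ∑ j, w j * (∑ i, if b.plus i = j ∧ i ≠ b.rep j then p i else 0) =
      ∑ i, if i = b.rep (b.plus i) then 0 else w (b.plus i) * p i := by
    simp only [Finset.mul_sum]
    rw [Finset.sum_comm]
    refine Finset.sum_congr rfl fun i _ => ?_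
    rw [Finset.sum_eq_single (b.plus i) (fun j _ hj => by simp [Ne.symm hj]) (by simp)]
    by_cases h : i = b.rep (b.plus i)
    · rw [if_pos h, if_neg fun hh => hh.2 h, mul_zero]
    · rw [if_neg h, if_pos ⟨rfl, h⟩]
  rw [h1, Fin.sum_univ_castSucc, b.plus_last, b.rep_e, if_pos rfl, add_zero, ← sub_eq_iff_eq_add',
    ← Finset.sum_sub_distrib]
  refine (Fintype.sum_of_injective (fun j : Slot e => b.row (Sum.inr j))
    (b.inj.comp Sum.inr_injective) _ _ (fun k hk => ?_) fun j => ?_).symm
  · by_cases h : ∃ x, b.row x = k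
    · obtain ⟨x | x, rfl⟩ := h
      · have hx : (b.row (Sum.inl x)).castSucc = b.rep x.1 := by rw [Base.rep, dif_neg x.2]
        simp [b.inRest, hw, hx, b.plus_rep]
      · exact absurd ⟨x, rfl⟩ hk
    · have hne : k.castSucc ≠ b.rep (b.lbl k) := by
        unfold Base.rep
        split_ifs with he
        · exact (Fin.castSucc_lt_last _).ne
        · exact fun hh => h ⟨_, (Fin.castSucc_injective _ hh).symm⟩
      simp [b.plus_castSucc, b.moved_off id h, hne]
  · simp [b.plus_castSucc, b.moved_row, b.inRest, hw, b.rep_ne_inr]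

/-! ### Rotations fixing the last coordinate -/

/-- A rotation extended by the identity on one more coordinate. -/
noncomputable def ext (U : Arr2 N) : Arr2 (N + 1) :=
  Fin.snoc (fun i => Fin.snoc (U i) 0) (Pi.single (Fin.last N) 1)

lemma continuous_ext : Continuous (ext (N := N)) := by
  refine continuous_pi fun i => continuous_pi fun k => ?_
  induction i using Fin.lastCases <;> induction k using Fin.lastCases <;>
    simp only [ext, Fin.snoc_castSucc, Fin.snoc_last] <;> fun_prop

lemma coord_ext (U : Arr2 N) (σ : Fin N → Bool) (t : Bool) :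
    coord (ext U) (Fin.snoc σ t) = Fin.snoc (coord U σ) (spin t) := by
  funext i
  induction i using Fin.lastCases <;>
    simp [coord, ext, Fin.sum_univ_castSucc, Pi.single_apply]

lemma mm_ext (U V : Arr2 N) : mm (ext U) (ext V) = ext (mm U V) := by
  funext i k
  rw [Orth.mm_apply]
  induction i using Fin.lastCases <;> induction k using Fin.lastCases <;>
    simp [ext, Orth.mm_apply, Fin.sum_univ_castSucc, Pi.single_apply, (Fin.castSucc_lt_last _).ne]

lemma fix_ext {U : Arr2 N} (h : Orth.Fix ∅ U) : Orth.Fix ∅ (ext U) := by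
  refine ⟨?_, fun i hi => absurd hi (Finset.notMem_empty i)⟩
  ext i k
  rw [Matrix.mul_apply]
  induction i using Fin.lastCases with
  | last =>
    induction k using Fin.lastCases <;>
      simp [ext, Fin.sum_univ_castSucc, (Fin.castSucc_lt_last _).ne, (Fin.castSucc_lt_last _).ne']
  | cast i =>
    induction k using Fin.lastCases with
    | last => simp [ext, Fin.sum_univ_castSucc, (Fin.castSucc_lt_last _).ne]
    | cast k =>
      have := congrFun₂ h.1 i k
      rw [Matrix.mul_apply] at this
      simpa [ext, Fin.sum_univ_castSucc, Pi.single_apply, (Fin.castSucc_lt_last _).ne,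
        Matrix.one_apply] using this

lemma coord_mm (A B : Arr2 N) (σ : Fin N → Bool) :
    coord (mm A B) σ = of A *ᵥ coord B σ := by
  funext i
  simp only [coord, Orth.mm_apply, mulVec, dotProduct, of_apply, Finset.sum_mul, Finset.mul_sum]
  rw [Finset.sum_comm]
  simp only [mul_assoc]

/-! ### Comparison at given rotations -/

/-- The weights of the base with one more spin attached. -/
noncomputable def spinA (b : Base e f N) (dl : κ → ℝ) (n : ℕ) (s : ℝ) (y : CIdx Unit P → ℝ)
    (T : κ → ℝ) (U : Arr2 N) (p : Bool × (Fin N → Bool)) : ℝ :=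
  pertA dl n b.lbl f s y U p.2 + spinQ dl e T (b.fields U p.2) (spin p.1)

omit [Fintype κ] in
lemma Base.fill_fields (b : Base e f N) (U : Arr2 N) (σ : Fin N → Bool) (t : Bool) :
    (fun l => (Fin.snoc (coord U σ) (spin t) : Fin (N + 1) → ℝ) (b.rep l)) =
      fill e (b.fields U σ) (spin t) := by
  funext l
  unfold fill Base.rep Base.fields
  split_ifs <;> simp

/-- The lifted base is dominated by the enlarged system at the composed rotation. -/
lemma lseG_spin_le (b : Base e f N) (hef : e ≠ f) (he : dl e = 0) (hf : dl f = 0) (hn : N + 1 ≤ n)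
    (hy : y ∈ PBox s) (hs : 0 ≤ s) {O : Matrix (Fin (N + 1)) (Fin (N + 1)) ℝ} {T : κ → ℝ}
    (hO : ∀ c c' j, (∑ i, if b.plus i = j then (O *ᵥ c) i * (O *ᵥ c') i else 0) =
      (∑ i, if b.plus i = j ∧ i ≠ b.rep j then c i * c' i else 0) +
        frame e T (fun l => c (b.rep l)) j * frame e T (fun l => c' (b.rep l)) j)
    (U : Arr2 N) :
    lseG (spinA b dl n s y T U) (fun p => pvec y (featV n b.lbl f U p.2)) ≤
      lseG (pertA dl n b.plus f s y (mm (of.symm O) (ext U)))
        (fun σ => pvec y (featV n b.plus f (mm (of.symm O) (ext U)) σ)) := by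
  set W := mm (of.symm O) (ext U)
  set X := Bool × (Fin N → Bool)
  set c : X → Fin (N + 1) → ℝ := fun p => Fin.snoc (coord U p.2) (spin p.1)
  set φ : X → ℝ := fun p => frame e T (fill e (b.fields U p.2) (spin p.1)) f
  set ε : X ≃ (Fin (N + 1) → Bool) := Fin.snocEquiv fun _ => Bool
  have hW : ∀ p, coord W (ε p) = O *ᵥ c p := fun p => by
    show coord W (Fin.snoc p.2 p.1) = _
    rw [coord_mm, coord_ext]
    rfl
  have hm1 : max n (N + 1) = n := max_eq_left hn
  have hm : max n N = n := max_eq_left (by omega)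
  have hgram : ∀ p q, ⟪featV n b.plus f W (ε p), featV n b.plus f W (ε q)⟫ =
      ⟪featV n b.lbl f U p.2, featV n b.lbl f U q.2⟫ + φ p * φ q / n := fun p q => by
    rw [inner_featV, inner_featV, hm1, hm, hW, hW, hO, b.fill_fields, b.fill_fields, add_div]
    congr 2
    have h := b.sum_rest (fun l => if l = f then 1 else 0) (if_neg hef)
      fun i => c p i * c q i
    simpa [c, lab_ne hef] using h
  have henergy : ∀ p, clsEnergy dl b.plus W (ε p) =
      clsEnergy dl b.lbl U p.2 + spinQ dl e T (b.fields U p.2) (spin p.1) := fun p => by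
    have h1 : ∑ i, dl (b.plus i) * coord W (ε p) i ^ 2 =
        ∑ j, dl j * (∑ i, if b.plus i = j then (O *ᵥ c p) i * (O *ᵥ c p) i else 0) := by
      simp only [Finset.mul_sum, hW]
      rw [Finset.sum_comm]
      simp [pow_two]
    have h2 := b.sum_rest dl he fun i => c p i * c p i
    have h3 : ∀ j : Slot e, dl (lab e f j.1) = dl j.1 := fun j => by
      unfold lab
      split_ifs with h
      · rw [he, h, hf]
      · rfl
    simp only [hO, mul_add, Finset.sum_add_distrib, h2, h3] at h1
    rw [clsEnergy, clsEnergy, h1, b.fill_fields, spinQ, probeQ]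
    simp only [c, Fin.snoc_castSucc, pow_two, Base.fields]
    ring
  set q0 : X → EuclideanSpace ℝ (Fin (N + 1)) := fun p =>
    WithLp.toLp 2 (Fin.snoc (WithLp.ofLp (featV n b.lbl f U p.2)) 0) with hq0
  set q1 : X → EuclideanSpace ℝ (Fin (N + 1)) := fun p =>
    WithLp.toLp 2 (Fin.snoc (WithLp.ofLp (featV n b.lbl f U p.2)) (φ p / Real.sqrt n)) with hq1
  have g00 : ∀ p q, ⟪q0 p, q0 q⟫ = ⟪featV n b.lbl f U p.2, featV n b.lbl f U q.2⟫ := fun p q => by
    simp [q0, PiLp.inner_apply, Fin.sum_univ_castSucc]
  have g01 : ∀ p q, ⟪q0 p, q1 q⟫ = ⟪q0 p, q0 q⟫ := fun p q => by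
    simp [q0, q1, PiLp.inner_apply, Fin.sum_univ_castSucc]
  have g11 : ∀ p q, ⟪q1 p, q1 q⟫ = ⟪featV n b.plus f W (ε p), featV n b.plus f W (ε q)⟫ := fun p q => by
    have hsq : φ q / Real.sqrt n * (φ p / Real.sqrt n) = φ p * φ q / n := by
      rw [div_mul_div_comm, Real.mul_self_sqrt (Nat.cast_nonneg _), mul_comm]
    simp [q1, hgram, PiLp.inner_apply, Fin.sum_univ_castSucc, hsq]
  calc lseG (spinA b dl n s y T U) (fun p => pvec y (featV n b.lbl f U p.2))
      = lseG (spinA b dl n s y T U) (fun p => pvec y (q0 p)) :=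
        lseG_gram _ fun p q => by simp only [inner_pvec, g00]
    _ ≤ lseG (spinA b dl n s y T U) (fun p => pvec y (q1 p)) :=
        lseG_split _ fun p q => by simp only [inner_pvec, g01]
    _ = lseG (spinA b dl n s y T U) (fun p => pvec y (featV n b.plus f W (ε p))) :=
        lseG_gram _ fun p q => by simp only [inner_pvec, g11]
    _ ≤ lseG (fun p => pertA dl n b.plus f s y W (ε p))
          (fun p => pvec y (featV n b.plus f W (ε p))) := by
        refine lseG_mono (fun p => ?_) _
        have h2 : 0 ≤ φ p * φ p / n := div_nonneg (mul_self_nonneg _) (Nat.cast_nonneg _)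
        have h3 : 0 ≤ s * y (Sum.inr ()) := mul_nonneg hs (hy _).1
        rw [spinA, pertA, pertA, henergy, ← real_inner_self_eq_norm_sq, ← real_inner_self_eq_norm_sq,
          hgram]
        nlinarith [mul_nonneg h3 h2]
    _ = lseG (pertA dl n b.plus f s y W) (fun σ => pvec y (featV n b.plus f W σ)) := by
        unfold lseG lse
        congr 1
        funext g
        exact congrArg Real.log (Equiv.sum_comp ε fun σ =>
          Real.exp (pertA dl n b.plus f s y W σ + ⟪g, pvec y (featV n b.plus f W σ)⟫))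

end Vale.Agent.P166F.Low
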