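import Vale.Agent.P166F.Haar
import Vale.Agent.P166F.Low.Model

/-!
P166: the class norms of one column of a random rotation concentrate.
-/

namespace Vale.Agent.P166F.Low

open MeasureTheory
open Vale.Agent.P166N.Spectrum (OrthInvLaw)

variable {κ : Type} [DecidableEq κ] {M : ℕ}

/-- The squared norm of the last column in a class. -/
def colSq (lbl : Fin (M + 1) → κ) (j : κ) (V : Fin (M + 1) → Fin (M + 1) → ℝ) : ℝ :=
  ∑ i, if lbl i = j then V i (Fin.last M) ^ 2 else 0

lemma colNorm_sq (lbl : Fin (M + 1) → κ) (V : Fin (M + 1) → Fin (M + 1) → ℝ) (j : κ) :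
    colNorm lbl V j ^ 2 = colSq lbl j V :=
  Real.sq_sqrt (Finset.sum_nonneg fun i _ => by split_ifs <;> positivity)

lemma sum_col_sq {N : ℕ} {V : Fin N → Fin N → ℝ}
    (hV : (Matrix.of V).transpose * Matrix.of V = 1) (k : Fin N) : ∑ i, V i k ^ 2 = 1 := by
  simpa [Matrix.mul_apply, pow_two] using congrFun₂ hV k k

lemma integral_entry_sq {N : ℕ} {ν : Measure (Fin N → Fin N → ℝ)} (hν : OrthInvLaw N ν)
    (i k : Fin N) : ∫ V, V i k ^ 2 ∂ν = 1 / N := by
  have := hν.prob
  have hc : ∀ l, Continuous fun V : Fin N → Fin N → ℝ => V l k ^ 2 := fun l => by fun_prop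
  have hint := fun l => (Orth.OrthInvLaw.stabLaw hν).integrable (hc l)
  have he : ∀ l, ∫ V, V l k ^ 2 ∂ν = ∫ V, V i k ^ 2 ∂ν := fun l => by
    conv_rhs => rw [← hν.rowInvariant.invariant (Equiv.swap i l)]
    rw [integral_map (measurable_pi_lambda _ fun a => measurable_pi_apply _).aemeasurable
      (hc i).aestronglyMeasurable]
    simp
  have h1 : ∑ l, ∫ V, V l k ^ 2 ∂ν = 1 := by
    rw [← integral_finsetSum _ fun l _ => hint l,
      integral_congr_ae (hν.orth.mono fun V hV => sum_col_sq hV k), integral_const, probReal_univ,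
      one_smul]
  simp only [he, Finset.sum_const, Finset.card_univ, Fintype.card_fin, nsmul_eq_mul] at h1
  have hN : (N : ℝ) ≠ 0 := fun h => by simp [h] at h1
  field_simp
  linarith

lemma deriv_colSq_rot (lbl : Fin (M + 1) → κ) (j : κ) {i k : Fin (M + 1)} (hik : i ≠ k)
    (U : Fin (M + 1) → Fin (M + 1) → ℝ) :
    deriv (fun t => colSq lbl j (rot i k t U)) 0 =
      2 * (U i (Fin.last M) * U k (Fin.last M)) *
        ((if lbl i = j then 1 else 0) - if lbl k = j then 1 else 0) := by
  set l := Fin.last M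
  have hd : ∀ a, HasDerivAt (fun t => rot i k t U a l)
      (if a = i then U k l else if a = k then -U i l else 0) 0 := fun a => by
    simp only [rot]
    split_ifs
    · simpa [Pi.add_def] using ((Real.hasDerivAt_cos 0).mul_const (U i l)).add
        ((Real.hasDerivAt_sin 0).mul_const (U k l))
    · simpa [Pi.sub_def] using ((Real.hasDerivAt_cos 0).mul_const (U k l)).sub
        ((Real.hasDerivAt_sin 0).mul_const (U i l))
    · exact hasDerivAt_const _ _
  have ht : ∀ a, HasDerivAt (fun t => if lbl a = j then rot i k t U a l ^ 2 else 0)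
      (if lbl a = j then 2 * U a l * (if a = i then U k l else if a = k then -U i l else 0) else 0)
      0 := fun a => by
    by_cases h : lbl a = j
    · simp only [h, if_true]
      refine ((hd a).fun_pow 2).congr_deriv ?_
      rw [rot_at_zero]
      simp
    · simp only [h, if_false]
      exact hasDerivAt_const _ _
  refine (HasDerivAt.fun_sum fun a _ => ht a).deriv.trans ?_
  rw [← Finset.sum_subset (Finset.subset_univ {i, k}) fun a _ ha => by
    simp only [Finset.mem_insert, Finset.mem_singleton, not_or] at ha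
    simp [ha.1, ha.2], Finset.sum_pair hik]
  simp only [if_true, if_neg hik.symm]
  split_ifs <;> ring

theorem exists_colNorm_conc :
    ∃ C : ℝ, ∀ (M : ℕ) (lbl : Fin (M + 1) → κ) (ν' : Measure (Fin (M + 1) → Fin (M + 1) → ℝ)),
      OrthInvLaw (M + 1) ν' → ∀ j,
      ∫ V, (colNorm lbl V j ^ 2 - (csize lbl j : ℝ) / (M + 1)) ^ 2 ∂ν' ≤ C / (M + 1) := by
  obtain ⟨C, hC⟩ := orth_poincare
  refine ⟨4 * |C|, fun M lbl ν hν j => ?_⟩
  have := hν.prob
  have hst := Orth.OrthInvLaw.stabLaw hν
  set f := colSq lbl j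
  have hf : ContDiff ℝ 1 f := by
    refine ContDiff.sum fun i _ => ?_
    by_cases h : lbl i = j <;> simp only [h, if_true, if_false] <;> fun_prop
  have hm : ∫ V, f V ∂ν = (csize lbl j : ℝ) / (M + 1) := by
    simp only [f, colSq, ← Finset.sum_filter]
    rw [integral_finsetSum _ fun i _ => hst.integrable (by fun_prop)]
    simp only [integral_entry_sq hν, Finset.sum_const, nsmul_eq_mul, csize]
    push_cast
    ring
  have h := hC (M + 1) ν hν f hf fun a U => by
    refine Finset.sum_congr rfl fun i _ => ?_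
    by_cases hi : i = a <;> simp [hi]
  simp only [colNorm_sq]
  rw [← hm]
  have hb : ∀ᵐ U ∂ν, ∑ i, ∑ k ∈ Finset.univ.erase i, deriv (fun t => f (rot i k t U)) 0 ^ 2 ≤ 4 :=
    hν.orth.mono fun U hU => by
      calc ∑ i, ∑ k ∈ Finset.univ.erase i, deriv (fun t => f (rot i k t U)) 0 ^ 2
          ≤ ∑ i, ∑ k ∈ Finset.univ.erase i,
              4 * U i (Fin.last M) ^ 2 * U k (Fin.last M) ^ 2 := by
            refine Finset.sum_le_sum fun i _ => Finset.sum_le_sum fun k hk => ?_
            rw [deriv_colSq_rot lbl j (Finset.ne_of_mem_erase hk).symm U]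
            split_ifs <;> ring_nf <;> first | exact le_rfl | positivity
        _ ≤ ∑ i, ∑ k, 4 * U i (Fin.last M) ^ 2 * U k (Fin.last M) ^ 2 :=
            Finset.sum_le_sum fun i _ => Finset.sum_le_sum_of_subset_of_nonneg
              (Finset.erase_subset _ _) fun k _ _ => by positivity
        _ = 4 := by simp [← Finset.mul_sum, sum_col_sq hU]
  have hint : ∀ i, ∀ k ∈ Finset.univ.erase i,
      Integrable (fun U => deriv (fun t => f (rot i k t U)) 0 ^ 2) ν := fun i k hk => by
    simp only [f, deriv_colSq_rot lbl j (Finset.ne_of_mem_erase hk).symm]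
    exact hst.integrable (by fun_prop)
  have hs : ∑ i, ∑ k ∈ Finset.univ.erase i, ∫ U, deriv (fun t => f (rot i k t U)) 0 ^ 2 ∂ν ≤ 4 := by
    simp only [← integral_finsetSum _ (hint _)]
    rw [← integral_finsetSum _ fun i _ => integrable_finsetSum _ (hint i)]
    exact (integral_mono_ae (integrable_finsetSum _ fun i _ => integrable_finsetSum _ (hint i))
      (integrable_const (4 : ℝ)) hb).trans_eq (by simp)
  have h0 : 0 ≤ ∑ i, ∑ k ∈ Finset.univ.erase i, ∫ U, deriv (fun t => f (rot i k t U)) 0 ^ 2 ∂ν :=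
    Finset.sum_nonneg fun i _ => Finset.sum_nonneg fun k _ => integral_nonneg fun U => sq_nonneg _
  refine h.trans ?_
  rw [Nat.cast_add, Nat.cast_one, div_mul_eq_mul_div, mul_comm 4 |C|]
  exact div_le_div_of_nonneg_right
    ((mul_le_mul_of_nonneg_right (le_abs_self C) h0).trans (mul_le_mul_of_nonneg_left hs (abs_nonneg C)))
    (by positivity)

end Vale.Agent.P166F.Low
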