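import Vale.Agent.P157.Low.Gauss2
import Vale.Agent.P166F.Haar.Stab
import Vale.Agent.P166F.Low.System

/-!
P166: log-sums with Gaussian fields along finitely many vectors: they depend only on the Gram matrix and
grow when an orthogonal part is added.
-/

namespace Vale.Agent.P166F.Low

open MeasureTheory ProbabilityTheory
open scoped RealInnerProductSpace
open Vale.Agent.P166F.Orth (Arr2 cube isCompact_cube)

section Abstract

variable {X E Z : Type} [Fintype X] [NormedAddCommGroup E] [InnerProductSpace ℝ E]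

/-- The log-sum of weights with fields along given vectors. -/
noncomputable def lse (a : X → ℝ) (v : X → E) (g : E) : ℝ :=
  Real.log (∑ x, Real.exp (a x + ⟪g, v x⟫))

lemma abs_lse_le [Nonempty X] {a : X → ℝ} {v : X → E} {C : ℝ} (ha : ∀ x, |a x| ≤ C)
    (hv : ∀ x, ‖v x‖ ≤ C) (g : E) :
    |lse a v g| ≤ Real.log (Fintype.card X) + C + C * ‖g‖ := by
  have hb : ∀ x, |a x + ⟪g, v x⟫| ≤ C + C * ‖g‖ := fun x =>
    (abs_add_le _ _).trans (add_le_add (ha x) ((abs_real_inner_le_norm g (v x)).trans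
      ((mul_le_mul_of_nonneg_left (hv x) (norm_nonneg g)).trans_eq (mul_comm _ _))))
  obtain ⟨x⟩ := ‹Nonempty X›
  have hpos : 0 < ∑ x, Real.exp (a x + ⟪g, v x⟫) := Finset.sum_pos (fun x _ => Real.exp_pos _) ⟨x, Finset.mem_univ x⟩
  have hc : (1 : ℝ) ≤ Fintype.card X := by exact_mod_cast Fintype.card_pos
  refine abs_le.2 ⟨?_, ?_⟩
  · have h1 : -(C + C * ‖g‖) ≤ lse a v g := by
      rw [lse, Real.le_log_iff_exp_le hpos]
      exact (Real.exp_le_exp.2 (abs_le.1 (hb x)).1).trans
        (Finset.single_le_sum (f := fun x => Real.exp (a x + ⟪g, v x⟫))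
          (fun x _ => (Real.exp_pos _).le) (Finset.mem_univ x))
    linarith [Real.log_nonneg hc]
  · rw [lse, Real.log_le_iff_le_exp hpos, add_assoc, Real.exp_add,
      Real.exp_log (by linarith : (0 : ℝ) < Fintype.card X)]
    refine (Finset.sum_le_sum fun x _ => Real.exp_le_exp.2 (abs_le.1 (hb x)).2).trans_eq ?_
    simp

variable [FiniteDimensional ℝ E] [MeasurableSpace E] [BorelSpace E]

/-- Its Gaussian mean. -/
noncomputable def lseG (a : X → ℝ) (v : X → E) : ℝ := ∫ g, lse a v g ∂stdGaussian E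

lemma integrable_norm_gauss : Integrable (fun g : E => ‖g‖) (stdGaussian E) :=
  (IsGaussian.integrable_id (μ := stdGaussian E)).norm

section Param

variable [MeasurableSpace Z] {a : Z → X → ℝ} {v : Z → X → E}

lemma measurable_lse (ha : ∀ x, Measurable fun z => a z x) (hv : ∀ x, Measurable fun z => v z x) :
    Measurable fun p : Z × E => lse (a p.1) (v p.1) p.2 := by
  unfold lse
  exact (Finset.measurable_fun_sum _ fun x _ => (((ha x).comp measurable_fst).add
    (measurable_snd.inner ((hv x).comp measurable_fst))).exp).log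

lemma measurable_lseG (ha : ∀ x, Measurable fun z => a z x) (hv : ∀ x, Measurable fun z => v z x) :
    Measurable fun z => lseG (a z) (v z) :=
  (measurable_lse ha hv).stronglyMeasurable.integral_prod_right'.measurable

lemma integrable_lse_prod [Nonempty X] {μ : Measure Z} [IsFiniteMeasure μ]
    (ha : ∀ x, Measurable fun z => a z x) (hv : ∀ x, Measurable fun z => v z x) {C : ℝ}
    (hb : ∀ᵐ z ∂μ, ∀ x, |a z x| ≤ C ∧ ‖v z x‖ ≤ C) :
    Integrable (fun p : Z × E => lse (a p.1) (v p.1) p.2) (μ.prod (stdGaussian E)) :=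
  ((integrable_const (Real.log (Fintype.card X) + C)).add
    ((integrable_norm_gauss.comp_snd μ).const_mul C)).mono'
      (measurable_lse ha hv).aestronglyMeasurable
      ((Measure.quasiMeasurePreserving_fst.ae hb).mono fun p hp => by
        rw [Real.norm_eq_abs]
        exact abs_lse_le (fun x => (hp x).1) (fun x => (hp x).2) p.2)

lemma integral_lse_prod [Nonempty X] {μ : Measure Z} [IsFiniteMeasure μ]
    (ha : ∀ x, Measurable fun z => a z x) (hv : ∀ x, Measurable fun z => v z x) {C : ℝ}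
    (hb : ∀ᵐ z ∂μ, ∀ x, |a z x| ≤ C ∧ ‖v z x‖ ≤ C) :
    Integrable (fun z => lseG (a z) (v z)) μ ∧
      ∫ p, lse (a p.1) (v p.1) p.2 ∂μ.prod (stdGaussian E) = ∫ z, lseG (a z) (v z) ∂μ :=
  ⟨(integrable_lse_prod ha hv hb).integral_prod_left, integral_prod _ (integrable_lse_prod ha hv hb)⟩

end Param

lemma integrable_lse [Nonempty X] (a : X → ℝ) (v : X → E) :
    Integrable (lse a v) (stdGaussian E) := by
  have hC : ∀ x, |a x| ≤ ∑ x, (|a x| + ‖v x‖) ∧ ‖v x‖ ≤ ∑ x, (|a x| + ‖v x‖) := fun x => by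
    have h := Finset.single_le_sum (f := fun x => |a x| + ‖v x‖) (fun x _ => by positivity)
      (Finset.mem_univ x)
    exact ⟨by linarith [norm_nonneg (v x)], by linarith [abs_nonneg (a x)]⟩
  refine ((integrable_const (Real.log (Fintype.card X) + ∑ x, (|a x| + ‖v x‖))).add
    (integrable_norm_gauss.const_mul (∑ x, (|a x| + ‖v x‖)))).mono' ?_ (.of_forall fun g => ?_)
  · exact ((measurable_lse (Z := Unit) (a := fun _ => a) (v := fun _ => v) (fun _ => measurable_const)
      fun _ => measurable_const).comp (measurable_const.prodMk measurable_id :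
        Measurable fun g : E => ((), g))).aestronglyMeasurable
  · rw [Real.norm_eq_abs]
    exact abs_lse_le (fun x => (hC x).1) (fun x => (hC x).2) g

/-- The mean log-sum depends only on the Gram matrix of the vectors. -/
lemma lseG_gram {E' : Type} [NormedAddCommGroup E'] [InnerProductSpace ℝ E']
    [FiniteDimensional ℝ E'] [MeasurableSpace E'] [BorelSpace E'] (a : X → ℝ) {v : X → E}
    {v' : X → E'} (h : ∀ x y, ⟪v x, v y⟫ = ⟪v' x, v' y⟫) : lseG a v = lseG a v' := by
  set e := Fintype.equivFin X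
  have hΘ : Measurable fun u : Fin (Fintype.card X) → ℝ =>
      Real.log (∑ x, Real.exp (a x + u (e x))) :=
    (Finset.measurable_fun_sum _ fun x _ => (measurable_const.add (measurable_pi_apply (e x))).exp).log
  have h1 := P157.Low.integral_inner_eq_GE (fun l => v (e.symm l)) hΘ
  have h2 := P157.Low.integral_inner_eq_GE (fun l => v' (e.symm l)) hΘ
  simp only [Equiv.symm_apply_apply] at h1 h2
  rw [lseG, lseG]
  unfold lse
  rw [h1, h2]
  simp only [h]

lemma lseG_mono [Nonempty X] {a a' : X → ℝ} (h : ∀ x, a x ≤ a' x) (v : X → E) :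
    lseG a v ≤ lseG a' v :=
  integral_mono (integrable_lse a v) (integrable_lse a' v) fun g =>
    Real.log_le_log (Finset.sum_pos (fun _ _ => Real.exp_pos _) Finset.univ_nonempty)
      (Finset.sum_le_sum fun x _ => Real.exp_le_exp.2 (by linarith [h x]))

/-- Adding to each vector a part orthogonal to all the others increases the mean log-sum. -/
lemma lseG_split [Nonempty X] (a : X → ℝ) {P P0 : X → E}
    (h : ∀ x y, ⟪P0 x, P y⟫ = ⟪P0 x, P0 y⟫) : lseG a P0 ≤ lseG a P := by
  set R : X → E := fun x => (2 : ℝ) • P0 x - P x with hR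
  have e : lseG a R = lseG a P := lseG_gram a fun x y => by
    simp only [hR, inner_sub_left, inner_sub_right, real_inner_smul_left, real_inner_smul_right]
    rw [h, real_inner_comm (P0 y) (P x), h, real_inner_comm (P0 x) (P0 y)]
    ring
  have hp : ∀ g, 2 * lse a P0 g ≤ lse a P g + lse a R g := fun g => by
    have hpos : ∀ v : X → E, 0 < ∑ x, Real.exp (a x + ⟪g, v x⟫) := fun v =>
      Finset.sum_pos (fun _ _ => Real.exp_pos _) Finset.univ_nonempty
    have hc : (∑ x, Real.exp (a x + ⟪g, P0 x⟫)) ^ 2 ≤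
        (∑ x, Real.exp (a x + ⟪g, P x⟫)) * ∑ x, Real.exp (a x + ⟪g, R x⟫) :=
      Finset.sum_sq_le_sum_mul_sum_of_sq_le_mul _ (fun _ _ => (Real.exp_pos _).le)
        (fun _ _ => (Real.exp_pos _).le) fun x _ => le_of_eq (by
          rw [hR, inner_sub_right, real_inner_smul_right, ← Real.exp_nat_mul, ← Real.exp_add]
          congr 1
          push_cast
          ring)
    have hl := Real.log_le_log (pow_pos (hpos P0) 2) hc
    rw [Real.log_pow, Real.log_mul (hpos P).ne' (hpos R).ne'] at hl
    simpa [lse] using hl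
  have hi := integral_mono ((integrable_lse a P0).const_mul 2)
    ((integrable_lse a P).add (integrable_lse a R)) hp
  rw [integral_const_mul, integral_add' (integrable_lse a P) (integrable_lse a R)] at hi
  simp only [lseG] at e ⊢
  linarith

end Abstract

variable {κ : Type} {N P : ℕ}

lemma sum_prod_unit (d : Unit → ℕ) (u : Fin N → ℝ) :
    ∑ x : (j : Unit) → Fin (d j) → Fin N, ∏ j, ∏ t, u (x j t) = (∑ i, u i) ^ d () := by
  rw [← Fintype.prod_sum (fun j (i : Fin (d j) → Fin N) => ∏ t, u (i t))]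
  simp [← Fintype.prod_sum (fun (_ : Fin (d ())) i => u i)]

/-- The Gram matrix of the perturbing vectors. -/
lemma inner_pvec (y : CIdx Unit P → ℝ) (v w : EuclideanSpace ℝ (Fin N)) :
    ⟪pvec y v, pvec y w⟫ = ∑ e : Mon Unit P, y (Sum.inl e) ^ 2 * ⟪v, w⟫ ^ (e.1 () : ℕ) := by
  simp only [PiLp.inner_apply, RCLike.inner_apply, conj_trivial, pvec]
  rw [Fintype.sum_sigma]
  refine Finset.sum_congr rfl fun e _ => ?_
  rw [← sum_prod_unit (fun j => (e.1 j : ℕ)) fun i => w i * v i, Finset.mul_sum]
  refine Finset.sum_congr rfl fun x _ => ?_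
  simp only [Finset.prod_mul_distrib]
  ring

/-- The deterministic part of the perturbed log-weight. -/
noncomputable def pertA [DecidableEq κ] (dl : κ → ℝ) (n : ℕ) (lbl : Fin N → κ) (f : κ) (s : ℝ)
    (y : CIdx Unit P → ℝ) (U : Fin N → Fin N → ℝ) (σ : Fin N → Bool) : ℝ :=
  clsEnergy dl lbl U σ + s * y (Sum.inr ()) * ‖featV n lbl f U σ‖ ^ 2

lemma pertH_eq [DecidableEq κ] (dl : κ → ℝ) (n : ℕ) (lbl : Fin N → κ) (f : κ) (s : ℝ)
    (y : CIdx Unit P → ℝ) (U : Fin N → Fin N → ℝ) (g : EuclideanSpace ℝ (GIdx Unit P N))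
    (σ : Fin N → Bool) :
    pertH dl n lbl f s y U g σ =
      pertA dl n lbl f s y U σ + ⟪g, pvec y (featV n lbl f U σ)⟫ := by
  rw [pertH, pertA]
  ring

section Cont

variable [DecidableEq κ] (dl : κ → ℝ) (n : ℕ) (lbl : Fin N → κ) (f : κ) (s : ℝ)
  (y : CIdx Unit P → ℝ) (σ : Fin N → Bool)

attribute [fun_prop] continuous_coord continuous_featV

@[fun_prop]
lemma continuous_pvec : Continuous (pvec (N := N) y) := by
  unfold pvec
  exact (PiLp.continuous_toLp 2 _).comp (continuous_pi fun x => by fun_prop)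

@[fun_prop]
lemma continuous_pertA : Continuous fun U : Fin N → Fin N → ℝ => pertA dl n lbl f s y U σ := by
  unfold pertA clsEnergy
  fun_prop

lemma measurable_pfeat : Measurable fun U : Fin N → Fin N → ℝ => pvec y (featV n lbl f U σ) :=
  ((continuous_pvec y).comp (continuous_featV n lbl f σ)).measurable

end Cont

/-- Finitely many continuous functions are uniformly bounded on the cube. -/
lemma exists_bound_cube {X : Type} [Fintype X] {F : Arr2 N → X → ℝ}
    (hF : ∀ x, Continuous fun U => F U x) : ∃ C, ∀ U ∈ cube N, ∀ x, |F U x| ≤ C := by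
  obtain ⟨C, hC⟩ := isCompact_cube.exists_bound_of_continuousOn (f := fun U => ∑ x, |F U x|)
    (continuous_finsetSum _ fun x _ => (hF x).abs).continuousOn
  refine ⟨C, fun U hU x => le_trans ?_ ((Real.norm_eq_abs _ ▸ le_abs_self _).trans (hC U hU))⟩
  exact Finset.single_le_sum (f := fun x => |F U x|) (fun x _ => abs_nonneg _) (Finset.mem_univ x)

/-- Bounds for the perturbed weights on the cube. -/
lemma exists_pert_bound [DecidableEq κ] (dl : κ → ℝ) (n : ℕ) (lbl : Fin N → κ) (f : κ) (s : ℝ)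
    (y : CIdx Unit P → ℝ) : ∃ C, ∀ U ∈ cube N, ∀ σ,
      |pertA dl n lbl f s y U σ| ≤ C ∧ ‖pvec y (featV n lbl f U σ)‖ ≤ C := by
  obtain ⟨C, hC⟩ := exists_bound_cube (F := fun U σ => |pertA dl n lbl f s y U σ| +
    ‖pvec y (featV n lbl f U σ)‖) fun σ => (continuous_pertA dl n lbl f s y σ).abs.add
      ((continuous_pvec y).comp (continuous_featV n lbl f σ)).norm
  refine ⟨C, fun U hU σ => ?_⟩
  have h := (abs_le.1 (hC U hU σ)).2
  exact ⟨by linarith [norm_nonneg (pvec y (featV n lbl f U σ))],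
    by linarith [abs_nonneg (pertA dl n lbl f s y U σ)]⟩

/-- The mean log-sum as an average over the rotations alone. -/
lemma pmass_eq [DecidableEq κ] {ν : Measure (Fin N → Fin N → ℝ)}
    (hν : Orth.StabLaw ∅ ν) (dl : κ → ℝ) (n : ℕ) (lbl : Fin N → κ) (f : κ) (s : ℝ)
    (y : CIdx Unit P → ℝ) :
    Integrable (fun U => lseG (pertA dl n lbl f s y U) fun σ => pvec y (featV n lbl f U σ)) ν ∧
      pmass dl n lbl f s y ν =
        ∫ U, lseG (pertA dl n lbl f s y U) (fun σ => pvec y (featV n lbl f U σ)) ∂ν := by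
  have := hν.prob
  obtain ⟨C, hC⟩ := exists_pert_bound dl n lbl f s y
  have h := integral_lse_prod (μ := ν) (a := pertA dl n lbl f s y)
    (v := fun U σ => pvec y (featV n lbl f U σ))
    (fun σ => (continuous_pertA dl n lbl f s y σ).measurable)
    (fun σ => measurable_pfeat n lbl f y σ)
    (hν.fix.mono fun U hU σ => hC U hU.mem_cube σ)
  refine ⟨h.1, ?_⟩
  rw [← h.2, pmass, pmean]
  simp only [pertH_eq, lse]

end Vale.Agent.P166F.Low
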