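import Vale.Agent.P166F.Low.Decomp

/-!
P166: the law of the enlarged rotation, split along the frame of its last column.
-/

namespace Vale.Agent.P166F.Low

open MeasureTheory Matrix
open Vale.Agent.P166 (spin)
open Vale.Agent.P166N.Spectrum (OrthInvLaw)
open Vale.Agent.P166F.Orth (Arr2 mm)

variable {κ : Type} [Fintype κ] [DecidableEq κ] {N : ℕ} {e f : κ}

/-- The enlarged rotation built from class norms `T` of the last column and a base rotation. -/
noncomputable def Base.splitRot (b : Base e f N) (T : κ → ℝ) (U : Arr2 N) : Arr2 (N + 1) :=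
  mm (of.symm (frameMat b.plus b.rep e T)) (ext U)

lemma measurable_frame {Z : Type} [MeasurableSpace Z] {T : Z → κ → ℝ}
    (hT : Measurable T) (x : κ → ℝ) (j : κ) : Measurable fun z => frame e (T z) x j := by
  have hTj : ∀ j, Measurable fun z => T z j := fun j => (measurable_pi_apply j).comp hT
  unfold frame refl
  fun_prop

lemma measurable_frameMat {ι : Type} [DecidableEq ι] (lbl : ι → κ) (r : κ → ι) (e : κ) :
    Measurable fun T : κ → ℝ => (of.symm (frameMat lbl r e T) : ι → ι → ℝ) := by
  refine measurable_pi_lambda _ fun i => measurable_pi_lambda _ fun k => ?_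
  simp only [frameMat, frameFun, of_symm_apply, of_apply]
  split_ifs
  · exact measurable_frame measurable_id _ _
  · exact measurable_const

lemma Base.measurable_splitRot (b : Base e f N) :
    Measurable fun p : (κ → ℝ) × Arr2 N => b.splitRot p.1 p.2 := by
  refine measurable_pi_lambda _ fun i => measurable_pi_lambda _ fun k => ?_
  simp only [Base.splitRot, Orth.mm_apply]
  refine Finset.measurable_fun_sum _ fun l _ => Measurable.mul ?_ ?_
  · exact ((measurable_pi_apply l).comp ((measurable_pi_apply i).comp
      (measurable_frameMat b.plus b.rep e))).comp measurable_fst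
  · exact ((measurable_pi_apply k).comp ((measurable_pi_apply l).comp
      continuous_ext.measurable)).comp measurable_snd

lemma Base.continuous_splitRot (b : Base e f N) (T : κ → ℝ) : Continuous (b.splitRot T) :=
  (Orth.continuous_mm_right _).comp continuous_ext

lemma Base.splitRot_fix (b : Base e f N) (T : κ → ℝ) {U : Arr2 N} (hU : Orth.Fix ∅ U) :
    Orth.Fix ∅ (b.splitRot T U) :=
  Orth.Fix.mul ⟨(frameMat_spec b.plus_rep e T).1, fun i hi => absurd hi (Finset.notMem_empty i)⟩
    (fix_ext hU)

/-- Coordinates of the split rotation: the frame on the representatives, the base elsewhere. -/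
lemma Base.coord_splitRot (b : Base e f N) (T : κ → ℝ) (U : Arr2 N) (σ : Fin N → Bool) (t : Bool)
    (i : Fin (N + 1)) :
    coord (b.splitRot T U) (Fin.snoc σ t) i =
      if i = b.rep (b.plus i) then frame e T (fill e (b.fields U σ) (spin t)) (b.plus i)
      else (Fin.snoc (coord U σ) (spin t) : Fin (N + 1) → ℝ) i := by
  rw [Base.splitRot, coord_mm, coord_ext, show (of (of.symm (frameMat b.plus b.rep e T))) =
    frameMat b.plus b.rep e T from rfl, (frameMat_spec b.plus_rep e T).2, frameFun, b.fill_fields]

/-- Sums of products of coordinates over one class at the split rotation. -/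
lemma Base.class_splitRot (b : Base e f N) (T : κ → ℝ) (U : Arr2 N) (σ σ' : Fin N → Bool)
    (t t' : Bool) (w : κ → ℝ) (hw : w e = 0) :
    ∑ i, w (b.plus i) * (coord (b.splitRot T U) (Fin.snoc σ t) i *
        coord (b.splitRot T U) (Fin.snoc σ' t') i) =
      ∑ k, w (b.lbl k) * (coord U σ k * coord U σ' k) +
        ∑ j : Slot e, w (lab e f j.1) * (b.fields U σ (Sum.inr j) * b.fields U σ' (Sum.inr j)) +
        ∑ j, w j * (frame e T (fill e (b.fields U σ) (spin t)) j *
          frame e T (fill e (b.fields U σ') (spin t')) j) := by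
  set c : Fin (N + 1) → ℝ := Fin.snoc (coord U σ) (spin t)
  set c' : Fin (N + 1) → ℝ := Fin.snoc (coord U σ') (spin t')
  have h1 : ∀ τ u, coord (b.splitRot T U) (Fin.snoc τ u) =
      frameFun b.plus b.rep e T (Fin.snoc (coord U τ) (spin u)) := fun τ u => by
    rw [Base.splitRot, coord_mm, coord_ext, show (of (of.symm (frameMat b.plus b.rep e T))) =
      frameMat b.plus b.rep e T from rfl, (frameMat_spec b.plus_rep e T).2]
  simp only [h1]
  have h2 : ∀ z : Fin (N + 1) → ℝ, ∑ i, w (b.plus i) * z i =
      ∑ j, w j * ∑ i, if b.plus i = j then z i else 0 := fun z => by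
    simp only [Finset.mul_sum]
    rw [Finset.sum_comm]
    simp
  rw [h2]
  simp only [frameFun_class b.plus_rep, mul_add, Finset.sum_add_distrib, b.fill_fields]
  rw [b.sum_rest w hw fun i => c i * c' i]
  simp [c, c', Base.fields]

/-- The split: a bounded function invariant under rotations inside the classes sees the enlarged
rotation only through the class norms of its last column and an independent base rotation. -/
theorem integral_split (b : Base e f N) {ν : Measure (Arr2 N)} (hν : OrthInvLaw N ν)
    {ν' : Measure (Arr2 (N + 1))} (hν' : OrthInvLaw (N + 1) ν') {F : Arr2 (N + 1) → ℝ}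
    (hF : Measurable F) {C : ℝ} (hC : ∀ W, Orth.Fix ∅ W → |F W| ≤ C)
    (hinv : ∀ B, ClassPres b.plus B → ∀ W, Orth.Fix ∅ W → F (mm (of.symm B) W) = F W) :
    ∫ V, F V ∂ν' = ∫ V, ∫ U, F (b.splitRot (colNorm b.plus V) U) ∂ν ∂ν' := by
  have := hν.prob
  have := hν'.prob
  have hst := Orth.OrthInvLaw.stabLaw hν
  have hst' := Orth.OrthInvLaw.stabLaw hν'
  have hWm : Measurable fun z : Arr2 (N + 1) × Arr2 N => mm z.1 (ext z.2) :=
    (Orth.continuous_mm.comp (continuous_fst.prodMk (continuous_ext.comp continuous_snd))).measurable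
  have hint : Integrable (fun z : Arr2 (N + 1) × Arr2 N => F (mm z.1 (ext z.2))) (ν'.prod ν) :=
    Integrable.of_bound (hF.comp hWm).aestronglyMeasurable C
      (((Measure.quasiMeasurePreserving_fst.ae hst'.fix).and
        (Measure.quasiMeasurePreserving_snd.ae hst.fix)).mono fun z hz => by
          rw [Real.norm_eq_abs]
          exact hC _ (hz.1.mul (fix_ext hz.2)))
  have hsw : ∫ V, F V ∂ν' = ∫ V, ∫ U, F (mm V (ext U)) ∂ν ∂ν' := by
    rw [integral_integral_swap (f := fun V U => F (mm V (ext U))) hint]
    have h : ∀ᵐ U ∂ν, ∫ V, F (mm V (ext U)) ∂ν' = ∫ V, F V ∂ν' := hst.fix.mono fun U hU => by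
      conv_rhs => rw [← hst'.right_invariant (fix_ext hU)]
      rw [integral_map (Orth.continuous_mm_left _).measurable.aemeasurable hF.aestronglyMeasurable]
    rw [integral_congr_ae h, integral_const, probReal_univ, one_smul]
  rw [hsw]
  refine integral_congr_ae (hst'.fix.mono fun V hV => ?_)
  set T := colNorm b.plus V
  obtain ⟨B, hB, hBe⟩ := exists_classPres b.plus b.plus_rep e (sum_col_sq hV.1 (Fin.last N))
    (T := T) (fun j => colNorm_sq b.plus V j)
  rw [b.rep_e] at hBe
  have hM := (frameMat_spec b.plus_rep e T).1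
  obtain ⟨Q, hQ, hVeq⟩ := exists_factor hV (O := B * frameMat b.plus b.rep e T) (by
    rw [transpose_mul, Matrix.mul_assoc, ← Matrix.mul_assoc Bᵀ, hB.1, Matrix.one_mul, hM]) hBe
  have hm : Measurable fun U : Arr2 N => F (b.splitRot T U) :=
    hF.comp (b.continuous_splitRot T).measurable
  have hrot : ∀ U, mm V (ext U) = mm (of.symm B) (b.splitRot T (mm Q U)) := fun U => by
    rw [hVeq, Base.splitRot, Orth.mm_assoc, mm_ext, ← Orth.mm_assoc]
    rfl
  show ∫ U, F (mm V (ext U)) ∂ν = ∫ U, F (b.splitRot T U) ∂ν
  rw [integral_congr_ae (hst.fix.mono fun U hU => by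
    show F (mm V (ext U)) = F (b.splitRot T (mm Q U))
    rw [hrot U, hinv B hB _ (b.splitRot_fix T (hQ.mul hU))])]
  conv_rhs => rw [← hst.invariant Q hQ]
  rw [integral_map (Orth.continuous_mm_right Q).measurable.aemeasurable hm.aestronglyMeasurable]

end Vale.Agent.P166F.Low
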